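import Vale.Agent.P229.Main

open scoped ContDiff

namespace Vale.Agent.Results.P229.A_full

theorem result : ∃ g : Fin 2 → Fin 2 → EuclideanSpace ℝ (Fin 2) → ℝ,
    (∀ i j, ContDiff ℝ ∞ (g i j)) ∧ (∀ x, (Matrix.of fun i j => g i j x).PosDef) ∧
    ∀ U : Set (EuclideanSpace ℝ (Fin 2)), IsOpen U → 0 ∈ U →
      ∀ F : EuclideanSpace ℝ (Fin 2) → EuclideanSpace ℝ (Fin 3), ContDiffOn ℝ ∞ F U →
        ¬ ∀ x ∈ U, ∀ i j, inner ℝ (fderiv ℝ F x (EuclideanSpace.single i 1))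
          (fderiv ℝ F x (EuclideanSpace.single j 1)) = g i j x :=
  Vale.Agent.P229.main

end Vale.Agent.Results.P229.A_full
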